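import Mathlib.RingTheory.MvPolynomial.Symmetric.Defs

/-!
The multiplicity of a Schur function of length at most three in the plethysm `h a [h b]`,
written with the bialternant formula in three variables.
-/

namespace Vale.Agent.P181.Slice

open MvPolynomial

/-- `h a [h b]` in three variables: substitute the monomials of degree `b` into `h a`. -/
noncomputable def plethysm (a b : ℕ) : MvPolynomial (Fin 3) ℤ :=
  aeval (fun s : Sym (Fin 3) b => (s.1.map X).prod) (hsymm (Sym (Fin 3) b) ℤ a)

/-- The Vandermonde product in three variables. -/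
noncomputable def vdm : MvPolynomial (Fin 3) ℤ := (X 0 - X 1) * (X 0 - X 2) * (X 1 - X 2)

/-- The multiplicity of the Schur function of `(l₁, l₂, l₃)` in `h a [h b]`: the coefficient
of the monomial with exponents `(l₁ + 2, l₂ + 1, l₃)` in `plethysm a b * vdm`. -/
noncomputable def mult (a b l₁ l₂ l₃ : ℕ) : ℤ :=
  coeff (Finsupp.single 0 (l₁ + 2) + Finsupp.single 1 (l₂ + 1) + Finsupp.single 2 l₃)
    (plethysm a b * vdm)

end Vale.Agent.P181.Slice
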