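import Mathlib

/-!
Gaussian binomials in `ℤ[q]`, product formula, and geometric series generating functions.
-/

namespace Vale.Agent.P181.Slice

open Polynomial Finset

/-- The Gaussian binomial, by the Pascal recursion. -/
noncomputable def gb : ℕ → ℕ → ℤ[X]
  | _, 0 => 1
  | 0, _ + 1 => 0
  | n + 1, k + 1 => gb n k + X ^ (k + 1) * gb n (k + 1)

@[simp] lemma gb_zero_right (n : ℕ) : gb n 0 = 1 := by cases n <;> rfl

lemma gb_eq_zero : ∀ {n k : ℕ}, n < k → gb n k = 0
  | 0, k + 1, _ => rfl
  | n + 1, k + 1, h => by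
      rw [gb, gb_eq_zero (show n < k by omega), gb_eq_zero (show n < k + 1 by omega)]; simp

@[simp] lemma gb_self : ∀ n, gb n n = 1
  | 0 => rfl
  | n + 1 => by rw [gb, gb_self n, gb_eq_zero (Nat.lt_succ_self n)]; simp

/-- The product of `1 - q ^ j` for `j = 1, …, n`. -/
noncomputable def qf : ℕ → ℤ[X]
  | 0 => 1
  | n + 1 => qf n * (1 - X ^ (n + 1))

lemma qf_ne_zero : ∀ n, qf n ≠ 0
  | 0 => one_ne_zero
  | n + 1 => mul_ne_zero (qf_ne_zero n) fun h => by
      have := congrArg (eval 0) h
      simp at this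

lemma gb_mul : ∀ k m : ℕ, gb (k + m) k * qf k * qf m = qf (k + m)
  | 0, m => by simp [qf]
  | k + 1, 0 => by simp [qf]
  | k + 1, m + 1 => by
      have h1 := gb_mul k (m + 1)
      have h2 := gb_mul (k + 1) m
      rw [show k + (m + 1) = k + m + 1 by omega] at h1
      rw [show k + 1 + m = k + m + 1 by omega] at h2
      rw [show k + 1 + (m + 1) = (k + m + 1) + 1 by omega, gb]
      simp only [qf] at h1 h2 ⊢
      linear_combination (1 - (X : ℤ[X]) ^ (k + 1)) * h1 + X ^ (k + 1) * (1 - X ^ (m + 1)) * h2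

lemma gb_symm (k m : ℕ) : gb (k + m) k = gb (k + m) m := by
  have h1 := gb_mul k m
  have h2 := gb_mul m k
  rw [add_comm m k] at h2
  apply mul_right_cancel₀ (mul_ne_zero (qf_ne_zero k) (qf_ne_zero m))
  linear_combination h1 - h2

/-- `1 + q + ⋯ + q ^ (L - 1)`. -/
noncomputable def qn (L : ℕ) : ℤ[X] := ∑ i ∈ range L, X ^ i

lemma qn_mul (L : ℕ) : (1 - X) * qn L = 1 - X ^ L := mul_neg_geom_sum X L

/-- The geometric series `∑ x ^ n T ^ n`. -/
noncomputable def geom {R : Type*} [CommRing R] (x : R) : PowerSeries R :=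
  PowerSeries.mk (x ^ ·)

lemma geom_mul {R : Type*} [CommRing R] (x : R) :
    geom x * (1 - PowerSeries.C x * PowerSeries.X) = 1 := by
  ext n
  rcases n with _ | n
  · simp [geom, PowerSeries.coeff_zero_eq_constantCoeff]
  · rw [mul_sub, mul_one, map_sub, ← mul_assoc, PowerSeries.coeff_succ_mul_X,
      PowerSeries.coeff_mul_C, PowerSeries.coeff_one, if_neg (Nat.succ_ne_zero n)]
    simp [geom, pow_succ]

lemma map_geom {R S : Type*} [CommRing R] [CommRing S] (f : R →+* S) (x : R) :
    PowerSeries.map f (geom x) = geom (f x) := by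
  ext n; simp [geom]

/-- Generating series of Gaussian binomials. -/
noncomputable def qser : ℕ → PowerSeries ℤ[X]
  | 0 => 1
  | n + 1 => qser n * geom (X ^ n)

lemma qser_eq_prod : ∀ n, qser n = ∏ i ∈ range n, geom ((X : ℤ[X]) ^ i)
  | 0 => rfl
  | n + 1 => by rw [qser, prod_range_succ, qser_eq_prod n]

lemma coeff_qser : ∀ k n : ℕ, PowerSeries.coeff n (qser (k + 1)) = gb (n + k) k
  | 0, n => by simp [qser, geom]
  | k + 1, 0 => by
      have h := coeff_qser k 0
      rw [qser, PowerSeries.coeff_zero_eq_constantCoeff_apply, map_mul,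
        ← PowerSeries.coeff_zero_eq_constantCoeff_apply, h]
      simp [geom, ← PowerSeries.coeff_zero_eq_constantCoeff_apply]
  | k + 1, n + 1 => by
      have e : qser (k + 1 + 1) -
          qser (k + 1 + 1) * PowerSeries.C ((X : ℤ[X]) ^ (k + 1)) * PowerSeries.X =
          qser (k + 1) := by
        calc qser (k + 1 + 1) -
              qser (k + 1 + 1) * PowerSeries.C ((X : ℤ[X]) ^ (k + 1)) * PowerSeries.X
            = qser (k + 1) * (geom ((X : ℤ[X]) ^ (k + 1)) *
              (1 - PowerSeries.C ((X : ℤ[X]) ^ (k + 1)) * PowerSeries.X)) := by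
              rw [qser.eq_2 (k + 1)]; ring
          _ = qser (k + 1) := by rw [geom_mul, mul_one]
      have h := congrArg (PowerSeries.coeff (n + 1)) e
      rw [map_sub, PowerSeries.coeff_succ_mul_X, PowerSeries.coeff_mul_C,
        coeff_qser k (n + 1), coeff_qser (k + 1) n] at h
      rw [show n + 1 + (k + 1) = (n + (k + 1)) + 1 by omega, gb]
      rw [show n + 1 + k = n + (k + 1) by omega] at h
      linear_combination h

lemma qser_sum_eq_prod (k : ℕ) :
    qser (k + 1) = ∏ i : Fin (k + 1), geom ((X : ℤ[X]) ^ (i : ℕ)) := by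
  rw [qser_eq_prod, Finset.prod_range]

/-- Coefficients of a product of geometric series are complete homogeneous sums. -/
lemma sum_sym_eq_coeff {R : Type*} [CommRing R] {σ : Type*} [Fintype σ] [DecidableEq σ]
    (v : σ → R) (n : ℕ) :
    ∑ s : Sym σ n, (s.1.map v).prod = PowerSeries.coeff n (∏ i, geom (v i)) := by
  rw [PowerSeries.coeff_prod]
  refine Finset.sum_bij (fun s _ => Multiset.toFinsupp s.1) ?_ ?_ ?_ ?_
  · intro s _
    simp only [mem_finsuppAntidiag, Finset.subset_univ, and_true]
    exact (Multiset.sum_count_eq_card fun a _ => Finset.mem_univ a).trans s.2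
  · intro s _ t _ h
    exact Sym.ext (Multiset.toFinsupp.injective h)
  · intro l hl
    simp only [mem_finsuppAntidiag, Finset.subset_univ, and_true] at hl
    refine ⟨⟨Finsupp.toMultiset l, ?_⟩, Finset.mem_univ _, ?_⟩
    · rw [Finsupp.card_toMultiset, Finsupp.sum_fintype _ _ fun _ => rfl]
      exact hl
    · simp
  · intro s _
    rw [Finset.prod_multiset_map_count]
    simp only [geom, PowerSeries.coeff_mk, Multiset.toFinsupp_apply]
    refine Finset.prod_subset (Finset.subset_univ _) fun i _ hi => ?_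
    rw [Multiset.mem_toFinset] at hi
    rw [Multiset.count_eq_zero.2 hi, pow_zero]

end Vale.Agent.P181.Slice
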