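import Mathlib
import Vale.Agent.P181.Slice.Defs
import Vale.Agent.P181.Slice.QB

/-!
The first three layers in the third variable of `h a [h b]` in three variables.
-/

namespace Vale.Agent.P181.Slice

open Finset

/-- Dehomogenisation: `x₁ ↦ 1`, `x₂ ↦ q`, `x₃ ↦ z`. -/
noncomputable def pt : Fin 3 → Polynomial (Polynomial ℤ) :=
  ![1, Polynomial.C Polynomial.X, Polynomial.X]

/-- The `z ^ r` layer of the dehomogenised plethysm. -/
noncomputable def layer (a b r : ℕ) : Polynomial ℤ :=
  (MvPolynomial.aeval pt (plethysm a b)).coeff r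

section exponents

/-- The monomial with exponents `(b - r - i, i, r)`. -/
def expSym (b : ℕ) (p : Σ r : Fin (b + 1), Fin (b + 1 - r)) : Sym (Fin 3) b :=
  ⟨Multiset.replicate p.1 2 + Multiset.replicate p.2 1 +
    Multiset.replicate (b - p.1 - p.2) 0, by
    have := p.1.2; have := p.2.2
    simp; omega⟩

lemma expSym_bijective (b : ℕ) : Function.Bijective (expSym b) := by
  constructor
  · rintro ⟨⟨r, hr⟩, ⟨i, hi⟩⟩ ⟨⟨r', hr'⟩, ⟨i', hi'⟩⟩ h
    have h2 := congrArg (fun s : Sym (Fin 3) b => Multiset.count 2 s.1) h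
    have h1 := congrArg (fun s : Sym (Fin 3) b => Multiset.count 1 s.1) h
    simp [expSym, Multiset.count_replicate] at h1 h2
    subst h1 h2
    rfl
  · rintro ⟨m, hm⟩
    have hs : Multiset.count 0 m + Multiset.count 1 m + Multiset.count 2 m = b := by
      have := (Multiset.sum_count_eq_card (s := (univ : Finset (Fin 3))) (m := m)
        fun a _ => Finset.mem_univ a).trans hm
      rwa [Fin.sum_univ_three] at this
    refine ⟨⟨⟨Multiset.count 2 m, by omega⟩, ⟨Multiset.count 1 m, by simp only; omega⟩⟩, ?_⟩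
    refine Sym.ext (Multiset.ext.2 fun j => ?_)
    show Multiset.count j (_ + _ + _) = Multiset.count j m
    fin_cases j <;> simp [Multiset.count_replicate] <;> omega

lemma expSym_prod {R : Type*} [CommRing R] (b : ℕ) (q z : R)
    (p : Σ r : Fin (b + 1), Fin (b + 1 - r)) :
    ((expSym b p).1.map ![1, q, z]).prod = z ^ (p.1 : ℕ) * q ^ (p.2 : ℕ) := by
  simp [expSym, Multiset.map_replicate]

end exponents

lemma aeval_plethysm (a b : ℕ) :
    MvPolynomial.aeval pt (plethysm a b) =
      PowerSeries.coeff a (∏ s : Sym (Fin 3) b, geom (s.1.map pt).prod) := by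
  rw [← sum_sym_eq_coeff, plethysm, MvPolynomial.hsymm]
  simp only [map_sum, map_multiset_prod, Multiset.map_map, Function.comp_def,
    MvPolynomial.aeval_X]

lemma rescale_geom {R : Type*} [CommRing R] (c x : R) :
    PowerSeries.rescale c (geom x) = geom (c * x) := by
  ext n; simp [geom, mul_pow]

lemma prod_geom_monomials {R : Type*} [CommRing R] (f : Polynomial ℤ →+* R) (z : R) (b : ℕ) :
    ∏ s : Sym (Fin 3) b, geom (s.1.map ![1, f Polynomial.X, z]).prod =
      ∏ r ∈ range (3 + b),
        PowerSeries.rescale (z ^ r) (PowerSeries.map f (qser (b + 1 - r))) := by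
  rw [← Equiv.prod_comp (Equiv.ofBijective _ (expSym_bijective b))]
  simp only [Equiv.ofBijective_apply, expSym_prod, Fintype.prod_sigma]
  have e : ∀ r : ℕ, PowerSeries.rescale (z ^ r) (PowerSeries.map f (qser (b + 1 - r))) =
      ∏ i : Fin (b + 1 - r), geom (z ^ r * f Polynomial.X ^ (i : ℕ)) := by
    intro r
    simp only [qser_eq_prod, map_prod, map_geom, rescale_geom, map_pow, Finset.prod_range]
  simp only [e]
  rw [← Finset.prod_range (fun r => ∏ i : Fin (b + 1 - r), geom (z ^ r * f Polynomial.X ^ (i : ℕ)))]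
  refine Finset.prod_subset (fun x hx => by simp at hx ⊢; omega) fun r _ hr => ?_
  simp only [mem_range] at hr
  have : IsEmpty (Fin (b + 1 - r)) := by
    rw [show b + 1 - r = 0 by omega]; infer_instance
  exact Finset.prod_of_isEmpty _

lemma rescale_one_term {R : Type*} [CommRing R] {z : R} (hz : z ^ 3 = 0) (F : PowerSeries R)
    (h0 : PowerSeries.coeff 0 F = 1) :
    PowerSeries.rescale z F = 1 + PowerSeries.C (z * PowerSeries.coeff 1 F) * PowerSeries.X +
      PowerSeries.C (z ^ 2 * PowerSeries.coeff 2 F) * PowerSeries.X ^ 2 := by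
  ext n
  simp only [PowerSeries.coeff_rescale, map_add, PowerSeries.coeff_one, PowerSeries.coeff_C_mul,
    PowerSeries.coeff_X_pow, PowerSeries.coeff_X]
  match n with
  | 0 => simp [h0, -PowerSeries.coeff_zero_eq_constantCoeff]
  | 1 => simp
  | 2 => simp
  | n + 3 => simp [pow_add, hz]

lemma coeff_zero_qser (n : ℕ) : PowerSeries.coeff 0 (qser n) = 1 := by
  rcases n with _ | n
  · simp [qser]
  · rw [coeff_qser, zero_add, gb_self]

lemma coeff_one_qser : ∀ n, PowerSeries.coeff 1 (qser n) = qn n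
  | 0 => by simp [qser, qn]
  | n + 1 => by
      rw [qser, PowerSeries.coeff_one_mul, coeff_one_qser n, qn, qn, Finset.sum_range_succ]
      simp [geom, ← PowerSeries.coeff_zero_eq_constantCoeff_apply, coeff_zero_qser,
        -PowerSeries.coeff_zero_eq_constantCoeff]

/-- Complete homogeneous polynomial of degree two at `1, q, …, q ^ (n - 1)`. -/
noncomputable def h2 (n : ℕ) : Polynomial ℤ := PowerSeries.coeff 2 (qser n)

lemma h2_mul (n : ℕ) : h2 n * (1 - Polynomial.X) * (1 - Polynomial.X ^ 2) =
    (1 - Polynomial.X ^ (n + 1)) * (1 - Polynomial.X ^ n) := by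
  rcases n with _ | n
  · simp [h2, qser]
  · have h := gb_mul n 2
    simp only [qf] at h
    rw [h2, coeff_qser, add_comm 2 n]
    apply mul_right_cancel₀ (qf_ne_zero n)
    linear_combination h

lemma product_mod {R : Type*} [CommRing R] (f : Polynomial ℤ →+* R) {z : R} (hz : z ^ 3 = 0)
    (b : ℕ) :
    ∏ r ∈ range (3 + b), PowerSeries.rescale (z ^ r) (PowerSeries.map f (qser (b + 1 - r))) =
      PowerSeries.map f (qser (b + 1)) *
        (1 + PowerSeries.C (z * f (qn b)) * PowerSeries.X +
          PowerSeries.C (z ^ 2) * (PowerSeries.C (f (h2 b)) * PowerSeries.X ^ 2 +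
            PowerSeries.C (f (qn (b - 1))) * PowerSeries.X)) := by
  rw [Finset.prod_range_add, Finset.prod_eq_one (s := range b) fun r _ => ?_, mul_one,
    Finset.prod_range_succ, Finset.prod_range_succ, Finset.prod_range_succ, Finset.prod_range_zero,
    one_mul, pow_zero, pow_one, Nat.sub_zero, Nat.add_sub_cancel,
    show b + 1 - 2 = b - 1 by omega,
    rescale_one_term hz _ (by rw [PowerSeries.coeff_map, coeff_zero_qser, map_one]),
    rescale_one_term (show (z ^ 2) ^ 3 = 0 by rw [← pow_mul, pow_mul' z 2 3, hz]; simp) _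
      (by rw [PowerSeries.coeff_map, coeff_zero_qser, map_one])]
  · simp only [PowerSeries.coeff_map, coeff_one_qser, ← h2.eq_def, map_mul, map_pow,
      PowerSeries.rescale_one, RingHom.id_apply]
    have hC : (PowerSeries.C z) ^ 3 = 0 := by rw [← map_pow, hz, map_zero]
    have h4 : (PowerSeries.C z) ^ 4 = 0 := by rw [pow_succ, hC, zero_mul]
    linear_combination (PowerSeries.map f (qser (b + 1)) *
      (PowerSeries.C (f (qn b)) * PowerSeries.C (f (qn (b - 1))) * PowerSeries.X ^ 2 +
        PowerSeries.C z * PowerSeries.C (f (h2 b)) * PowerSeries.C (f (qn (b - 1))) *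
          PowerSeries.X ^ 3 +
        PowerSeries.C z * PowerSeries.C (f (h2 (b - 1))) * PowerSeries.X ^ 2 +
        (PowerSeries.C z) ^ 2 * PowerSeries.C (f (qn b)) * PowerSeries.C (f (h2 (b - 1))) *
          PowerSeries.X ^ 3 +
        (PowerSeries.C z) ^ 3 * PowerSeries.C (f (h2 b)) * PowerSeries.C (f (h2 (b - 1))) *
          PowerSeries.X ^ 4)) * hC
  · rw [pow_add, hz, zero_mul, PowerSeries.rescale_zero]
    simp [← PowerSeries.coeff_zero_eq_constantCoeff_apply, coeff_zero_qser,
      -PowerSeries.coeff_zero_eq_constantCoeff]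

open Polynomial in
lemma layers_mod {R : Type*} [CommRing R] (π : (ℤ[X])[X] →+* R) (hz : (π X) ^ 3 = 0) (a b : ℕ) :
    π (MvPolynomial.aeval pt (plethysm (a + 1) b)) =
      π (C (gb (a + 1 + b) b)) + π (C (gb (a + b) b)) * π (C (qn b)) * π X +
      ((if a = 0 then 0 else π (C (gb (a - 1 + b) b)) * π (C (h2 b))) +
        π (C (gb (a + b) b)) * π (C (qn (b - 1)))) * π X ^ 2 := by
  have key : π (MvPolynomial.aeval pt (plethysm (a + 1) b)) =
      PowerSeries.coeff (a + 1) (PowerSeries.map (π.comp C) (qser (b + 1)) *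
        (1 + PowerSeries.C (π X * π.comp C (qn b)) * PowerSeries.X +
          PowerSeries.C (π X ^ 2) * (PowerSeries.C (π.comp C (h2 b)) * PowerSeries.X ^ 2 +
            PowerSeries.C (π.comp C (qn (b - 1))) * PowerSeries.X))) := by
    rw [← product_mod (π.comp C) hz, ← prod_geom_monomials, aeval_plethysm,
      ← PowerSeries.coeff_map, map_prod]
    congr 1
    refine Finset.prod_congr rfl fun s _ => ?_
    refine (map_geom π _).trans (congrArg geom ?_)
    rw [map_multiset_prod, Multiset.map_map]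
    congr 1
    refine Multiset.map_congr rfl fun j _ => ?_
    fin_cases j <;> simp [pt]
  have e : ∀ x y : R, PowerSeries.coeff (a + 1)
      (PowerSeries.map (π.comp C) (qser (b + 1)) * (PowerSeries.C x * (PowerSeries.C y *
        PowerSeries.X ^ 2))) = (if a = 0 then 0 else π (C (gb (a - 1 + b) b))) * x * y := by
    intro x y
    rw [← mul_assoc, ← mul_assoc, PowerSeries.coeff_mul_X_pow']
    rcases a with _ | a
    · simp
    · rw [if_pos (by omega), show a + 1 + 1 - 2 = a by omega, PowerSeries.coeff_mul_C,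
        PowerSeries.coeff_mul_C, PowerSeries.coeff_map, coeff_qser]
      simp
  have e1 : ∀ x y : R, PowerSeries.coeff (a + 1)
      (PowerSeries.map (π.comp C) (qser (b + 1)) * (PowerSeries.C x * (PowerSeries.C y *
        PowerSeries.X))) = π (C (gb (a + b) b)) * x * y := by
    intro x y
    rw [← mul_assoc, ← mul_assoc, PowerSeries.coeff_succ_mul_X, PowerSeries.coeff_mul_C,
      PowerSeries.coeff_mul_C, PowerSeries.coeff_map, coeff_qser]
    simp
  have e2 : ∀ x : R, PowerSeries.coeff (a + 1)
      (PowerSeries.map (π.comp C) (qser (b + 1)) * (PowerSeries.C x * PowerSeries.X)) =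
      π (C (gb (a + b) b)) * x := by
    intro x
    rw [← mul_assoc, PowerSeries.coeff_succ_mul_X, PowerSeries.coeff_mul_C,
      PowerSeries.coeff_map, coeff_qser]
    simp
  rw [key]
  simp only [mul_add, map_add, mul_one, e, e1, e2, PowerSeries.coeff_map, coeff_qser]
  simp only [RingHom.comp_apply]
  split_ifs <;> ring

open Polynomial in
lemma layers (a b : ℕ) :
    layer (a + 1) b 0 = gb (a + 1 + b) b ∧
    layer (a + 1) b 1 = gb (a + b) b * qn b ∧
    layer (a + 1) b 2 =
      (if a = 0 then 0 else gb (a - 1 + b) b * h2 b) + gb (a + b) b * qn (b - 1) := by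
  set T : (ℤ[X])[X] := C (gb (a + 1 + b) b) + C (gb (a + b) b * qn b) * X +
    C ((if a = 0 then 0 else gb (a - 1 + b) b * h2 b) + gb (a + b) b * qn (b - 1)) * X ^ 2
    with hT
  have hz : (Ideal.Quotient.mk (Ideal.span {(X : (ℤ[X])[X]) ^ 3}) X) ^ 3 = 0 := by
    rw [← map_pow, Ideal.Quotient.eq_zero_iff_mem]; exact Ideal.subset_span rfl
  have e : Ideal.Quotient.mk (Ideal.span {(X : (ℤ[X])[X]) ^ 3})
      (MvPolynomial.aeval pt (plethysm (a + 1) b)) =
      Ideal.Quotient.mk (Ideal.span {(X : (ℤ[X])[X]) ^ 3}) T := by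
    refine (layers_mod (R := (ℤ[X])[X] ⧸ Ideal.span {(X : (ℤ[X])[X]) ^ 3}) (Ideal.Quotient.mk (Ideal.span {(X : (ℤ[X])[X]) ^ 3})) hz a b).trans ?_
    rw [hT]
    split_ifs <;> simp only [map_add, map_mul, map_pow, map_zero]
  rw [Ideal.Quotient.eq, Ideal.mem_span_singleton, X_pow_dvd_iff] at e
  have c : ∀ r < 3, layer (a + 1) b r = T.coeff r := fun r hr => by
    have := e r hr
    rwa [coeff_sub, sub_eq_zero] at this
  refine ⟨?_, ?_, ?_⟩ <;> rw [c _ (by norm_num), hT] <;>
    simp only [coeff_add, coeff_C, coeff_C_mul_X, coeff_C_mul_X_pow] <;> simp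

lemma plethysm_isHomogeneous (a b : ℕ) : (plethysm a b).IsHomogeneous (a * b) := by
  have key : ∀ (n : ℕ) {σ : Type} (v : σ → MvPolynomial (Fin 3) ℤ),
      (∀ i, (v i).IsHomogeneous n) → ∀ m : Multiset σ,
      ((m.map v).prod).IsHomogeneous (Multiset.card m * n) := by
    intro n σ v hv m
    induction m using Multiset.induction with
    | empty => simpa using MvPolynomial.isHomogeneous_one (Fin 3) ℤ
    | cons x m ih =>
      rw [Multiset.map_cons, Multiset.prod_cons, Multiset.card_cons]
      convert (hv x).mul ih using 1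
      ring
  rw [plethysm, MvPolynomial.hsymm, map_sum]
  refine MvPolynomial.IsHomogeneous.sum _ _ _ fun s _ => ?_
  rw [map_multiset_prod, Multiset.map_map]
  simp only [Function.comp_def, MvPolynomial.aeval_X]
  have := key b (fun t : Sym (Fin 3) b => (t.1.map MvPolynomial.X).prod) (fun t => ?_) s.1
  · exact (congrArg (fun k => MvPolynomial.IsHomogeneous _ (k * b)) s.2).mp this
  · have := key 1 MvPolynomial.X (fun i => MvPolynomial.isHomogeneous_X ℤ i) t.1
    rw [mul_one] at this
    exact (congrArg (fun k => MvPolynomial.IsHomogeneous _ k) t.2).mp this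

/-- Coefficients of a homogeneous polynomial from its dehomogenisation. -/
lemma coeff_eq_dehom {p : MvPolynomial (Fin 3) ℤ} {n : ℕ} (hp : p.IsHomogeneous n)
    (d : Fin 3 →₀ ℕ) (hd : d 0 + d 1 + d 2 = n) :
    MvPolynomial.coeff d p = ((MvPolynomial.aeval pt p).coeff (d 2)).coeff (d 1) := by
  classical
  conv_rhs => rw [p.as_sum]
  simp only [map_sum, Polynomial.finsetSum_coeff]
  have e : ∀ u : Fin 3 →₀ ℕ, ((MvPolynomial.aeval pt (MvPolynomial.monomial u
      (p.coeff u))).coeff (d 2)).coeff (d 1) =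
      if u 1 = d 1 ∧ u 2 = d 2 then p.coeff u else 0 := by
    intro u
    rw [MvPolynomial.aeval_monomial, Finsupp.prod_fintype _ _ fun _ => pow_zero _,
      Fin.prod_univ_three]
    have h : algebraMap ℤ (Polynomial (Polynomial ℤ)) (p.coeff u) *
        (pt 0 ^ u 0 * pt 1 ^ u 1 * pt 2 ^ u 2) =
        Polynomial.C (Polynomial.C (p.coeff u) * Polynomial.X ^ u 1) * Polynomial.X ^ u 2 := by
      simp [pt]; ring
    rw [h, Polynomial.coeff_C_mul_X_pow]
    by_cases h2 : u 2 = d 2
    · simp [h2, eq_comm]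
    · simp [h2, Ne.symm h2]
  rw [Finset.sum_eq_single d]
  · rw [e, if_pos ⟨rfl, rfl⟩]
  · intro u hu hne
    rw [e, if_neg]
    rintro ⟨h1, h2⟩
    refine hne (Finsupp.ext fun j => ?_)
    have h := hp (MvPolynomial.mem_support_iff.1 hu)
    rw [Finsupp.weight_apply, Finsupp.sum_fintype _ _ fun _ => by simp, Fin.sum_univ_three] at h
    simp at h
    fin_cases j <;> simp <;> omega
  · intro hd'
    rw [e, if_pos ⟨rfl, rfl⟩]
    simpa using hd'

end Vale.Agent.P181.Slice
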