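import Mathlib

/-!
The number of multisets of `m` elements of `{0, …, k}` with a given sum increases up to the
middle: the algebraic `sl₂` proof.
-/

namespace Vale.Agent.P181.Slice

open MvPolynomial Finset

variable (k : ℕ)

/-- The sum of the exponents weighted by `w`. -/
def wsum (w : Fin (k + 1) → ℕ) (d : Fin (k + 1) →₀ ℕ) : ℕ := ∑ j, d j * w j

/-- The diagonal derivation with weights `w`. -/
noncomputable def diag (w : Fin (k + 1) → ℕ) :
    Derivation ℚ (MvPolynomial (Fin (k + 1)) ℚ) (MvPolynomial (Fin (k + 1)) ℚ) :=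
  mkDerivation ℚ fun j => C (w j : ℚ) * X j

/-- Raising derivation. -/
noncomputable def up :
    Derivation ℚ (MvPolynomial (Fin (k + 1)) ℚ) (MvPolynomial (Fin (k + 1)) ℚ) :=
  mkDerivation ℚ fun j => if h : (j : ℕ) < k then X ⟨j + 1, by omega⟩ else 0

/-- Lowering derivation. -/
noncomputable def down :
    Derivation ℚ (MvPolynomial (Fin (k + 1)) ℚ) (MvPolynomial (Fin (k + 1)) ℚ) :=
  mkDerivation ℚ fun j => C ((j : ℚ) * ((k : ℚ) - j + 1)) * X ⟨(j : ℕ) - 1, by omega⟩



/-- The level derivation. -/
noncomputable def lev :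
    Derivation ℚ (MvPolynomial (Fin (k + 1)) ℚ) (MvPolynomial (Fin (k + 1)) ℚ) :=
  diag k fun j => (j : ℕ)

/-- The Euler derivation. -/
noncomputable def eul :
    Derivation ℚ (MvPolynomial (Fin (k + 1)) ℚ) (MvPolynomial (Fin (k + 1)) ℚ) :=
  diag k fun _ => 1

variable {k}

lemma diag_monomial (w : Fin (k + 1) → ℕ) (d : Fin (k + 1) →₀ ℕ) (r : ℚ) :
    diag k w (monomial d r) = (wsum k w d : ℚ) • monomial d r := by
  rw [diag, mkDerivation_monomial, Finsupp.sum_fintype _ _ (fun i => by simp), wsum,
    Nat.cast_sum, Finset.sum_smul, Finset.smul_sum]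
  refine Finset.sum_congr rfl fun j _ => ?_
  rcases Nat.eq_zero_or_pos (d j) with h | h
  · simp [h]
  · rw [C_mul_X_eq_monomial, smul_eq_mul, monomial_mul,
      tsub_add_cancel_of_le (Finsupp.single_le_iff.2 h), smul_monomial, smul_monomial]
    congr 1
    push_cast; simp only [smul_eq_mul]; ring

lemma coeff_diag (w : Fin (k + 1) → ℕ) (d : Fin (k + 1) →₀ ℕ)
    (p : MvPolynomial (Fin (k + 1)) ℚ) :
    coeff d (diag k w p) = (wsum k w d : ℚ) * coeff d p := by
  induction p using MvPolynomial.induction_on' with
  | monomial u r =>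
    rw [diag_monomial, coeff_smul, smul_eq_mul, coeff_monomial]
    split_ifs with h
    · rw [h]
    · simp
  | add p q hp hq => rw [map_add, coeff_add, coeff_add, hp, hq, mul_add]

lemma up_eul (p : MvPolynomial (Fin (k + 1)) ℚ) : eul k (up k p) = up k (eul k p) := by
  have h : ⁅eul k, up k⁆ = 0 := by
    refine derivation_ext fun j => ?_
    rw [Derivation.commutator_apply]
    simp only [eul, diag, up, mkDerivation_X, Derivation.coe_zero, Pi.zero_apply]
    by_cases hj : (j : ℕ) < k <;> simp [hj]
  have := congrArg (fun D => D p) h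
  simpa [Derivation.commutator_apply, sub_eq_zero] using this

lemma down_eul (p : MvPolynomial (Fin (k + 1)) ℚ) : eul k (down k p) = down k (eul k p) := by
  have h : ⁅eul k, down k⁆ = 0 := by
    refine derivation_ext fun j => ?_
    rw [Derivation.commutator_apply]
    simp [eul, diag, down]
  have := congrArg (fun D => D p) h
  simpa [Derivation.commutator_apply, sub_eq_zero] using this

lemma up_lev (p : MvPolynomial (Fin (k + 1)) ℚ) :
    lev k (up k p) = up k (lev k p) + up k p := by
  have h : ⁅lev k, up k⁆ = up k := by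
    refine derivation_ext fun j => ?_
    rw [Derivation.commutator_apply]
    simp only [lev, diag, up, mkDerivation_X]
    by_cases hj : (j : ℕ) < k
    · simp [hj]; ring
    · simp [hj]
  have := congrArg (fun D => D p) h
  simp only [Derivation.commutator_apply] at this
  linear_combination this

lemma down_lev (p : MvPolynomial (Fin (k + 1)) ℚ) :
    lev k (down k p) = down k (lev k p) - down k p := by
  have h : ⁅lev k, down k⁆ = -down k := by
    refine derivation_ext fun j => ?_
    rw [Derivation.commutator_apply]
    simp only [lev, diag, down, mkDerivation_X, Derivation.coe_neg, Pi.neg_apply]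
    rcases Nat.eq_zero_or_pos (j : ℕ) with hj | hj
    · simp [hj]
    · simp [Nat.cast_sub (show 1 ≤ (j : ℕ) by omega)]; ring
  have := congrArg (fun D => D p) h
  simp only [Derivation.commutator_apply, Derivation.coe_neg, Pi.neg_apply] at this
  linear_combination this

lemma down_up (p : MvPolynomial (Fin (k + 1)) ℚ) :
    down k (up k p) = up k (down k p) + C (k : ℚ) * eul k p - 2 * lev k p := by
  have h : ⁅down k, up k⁆ = (k : ℚ) • eul k - (2 : ℚ) • lev k := by
    refine derivation_ext fun j => ?_
    rw [Derivation.commutator_apply]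
    simp only [eul, lev, diag, up, down, mkDerivation_X, Derivation.coe_sub, Pi.sub_apply,
      Derivation.coe_smul, Pi.smul_apply, smul_eq_C_mul]
    obtain ⟨j, hjl⟩ := j
    rcases Nat.eq_zero_or_pos j with h0 | h0
    · subst h0
      rcases Nat.eq_zero_or_pos k with hk | hk
      · simp [hk]
      · simp [hk, map_ofNat]
    · by_cases hj : j < k
      · simp [hj, show j - 1 < k by omega, show j - 1 + 1 = j by omega, map_ofNat]
        ring
      · have e0 : j = k := by omega
        subst e0
        simp [show j - 1 < j by omega, show j - 1 + 1 = j by omega, map_ofNat]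
        ring
  have := congrArg (fun D => D p) h
  simp only [Derivation.commutator_apply, Derivation.coe_sub, Pi.sub_apply,
    Derivation.coe_smul, Pi.smul_apply, smul_eq_C_mul, map_ofNat] at this
  linear_combination this

/-- A raising map has no kernel below the middle level. -/
lemma up_injective {m i : ℕ} (hi : 2 * i < k * m) {f : MvPolynomial (Fin (k + 1)) ℚ}
    (hN : eul k f = C (m : ℚ) * f) (hH : lev k f = C (i : ℚ) * f) (hE : up k f = 0) : f = 0 := by
  set g : ℕ → MvPolynomial (Fin (k + 1)) ℚ := fun p => (down k)^[p] f with hg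
  have gs : ∀ p, g (p + 1) = down k (g p) := fun p => Function.iterate_succ_apply' _ _ _
  have gN : ∀ p, eul k (g p) = C (m : ℚ) * g p := by
    intro p
    induction p with
    | zero => exact hN
    | succ p ih => rw [gs, down_eul, ih, Derivation.leibniz]; simp
  have gH : ∀ p, lev k (g p) = C ((i : ℚ) - p) * g p := by
    intro p
    induction p with
    | zero => simpa [hg] using hH
    | succ p ih =>
      rw [gs, down_lev, ih, Derivation.leibniz]
      simp; ring
  have gE : ∀ p, up k (g (p + 1)) =
      -C (((p : ℚ) + 1) * ((k : ℚ) * m - 2 * i + p)) * g p := by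
    intro p
    induction p with
    | zero =>
      have e := down_up (g 0)
      rw [show up k (g 0) = 0 from hE, map_zero, gN 0, gH 0, ← gs 0] at e
      simp [map_ofNat] at e ⊢
      linear_combination -e
    | succ p ih =>
      have e := down_up (g (p + 1))
      rw [ih, Derivation.leibniz, gN (p + 1), gH (p + 1), ← gs (p + 1)] at e
      have h2 : down k (2 : MvPolynomial (Fin (k + 1)) ℚ) = 0 := by
        exact_mod_cast (down k).map_natCast 2
      simp [← gs, map_ofNat, h2] at e ⊢
      linear_combination -e
  have top : g (i + 1) = 0 := by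
    ext d
    have h := congrArg (coeff d) (gH (i + 1))
    rw [lev, coeff_diag, coeff_C_mul] at h
    rw [coeff_zero]
    by_contra hc
    have h2 := mul_right_cancel₀ hc h
    have : (0 : ℚ) ≤ (wsum k (fun j => (j : ℕ)) d : ℚ) := Nat.cast_nonneg _
    push_cast at h2
    linarith
  have all : ∀ p ≤ i + 1, g (i + 1 - p) = 0 := by
    intro p hp
    induction p with
    | zero => exact top
    | succ p ih =>
      have h := gE (i + 1 - (p + 1))
      rw [show i + 1 - (p + 1) + 1 = i + 1 - p by omega, ih (by omega), map_zero] at h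
      refine (mul_eq_zero.1 h.symm).resolve_left ?_
      have : (2 : ℚ) * i < k * m := by exact_mod_cast hi
      rw [neg_eq_zero, C_eq_zero]
      positivity
  simpa [hg] using all (i + 1) le_rfl

/-- Exponent vectors of degree `m` and level `i`. -/
def levelSet (k m i : ℕ) : Set (Fin (k + 1) →₀ ℕ) :=
  {d | wsum k (fun _ => 1) d = m ∧ wsum k (fun j => (j : ℕ)) d = i}

lemma mem_restrict_iff (m i : ℕ) (p : MvPolynomial (Fin (k + 1)) ℚ) :
    p ∈ restrictSupport ℚ (levelSet k m i) ↔
      eul k p = C (m : ℚ) * p ∧ lev k p = C (i : ℚ) * p := by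
  rw [mem_restrictSupport_iff]
  constructor
  · intro h
    constructor <;>
    · ext d
      simp only [eul, lev, coeff_diag, coeff_C_mul]
      by_cases hd : coeff d p = 0
      · simp [hd]
      · have := h (mem_support_iff.2 hd)
        simp only [levelSet, Set.mem_ofPred_eq] at this
        simp [this]
  · rintro ⟨h1, h2⟩ d hd
    rw [Finset.mem_coe, mem_support_iff] at hd
    have e1 := congrArg (coeff d) h1
    have e2 := congrArg (coeff d) h2
    rw [eul, coeff_diag, coeff_C_mul] at e1
    rw [lev, coeff_diag, coeff_C_mul] at e2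
    exact ⟨Nat.cast_injective (R := ℚ) (mul_right_cancel₀ hd e1),
      Nat.cast_injective (R := ℚ) (mul_right_cancel₀ hd e2)⟩

lemma levelSet_finite (m i : ℕ) : (levelSet k m i).Finite := by
  refine Set.Finite.subset (Finset.finite_toSet (Finset.finsuppAntidiag univ m)) fun d hd => ?_
  simp only [levelSet, Set.mem_ofPred_eq, wsum, mul_one] at hd
  simp [hd.1]

lemma card_levelSet_le {m i : ℕ} (hi : 2 * i < k * m) :
    Nat.card (levelSet k m i) ≤ Nat.card (levelSet k m (i + 1)) := by
  have := (levelSet_finite (k := k) m i).to_subtype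
  have := (levelSet_finite (k := k) m (i + 1)).to_subtype
  rw [← Module.finrank_eq_nat_card_basis (basisRestrictSupport ℚ (levelSet k m i)),
    ← Module.finrank_eq_nat_card_basis (basisRestrictSupport ℚ (levelSet k m (i + 1)))]
  have := Module.Finite.of_basis (basisRestrictSupport ℚ (levelSet k m (i + 1)))
  have hmem : ∀ p ∈ restrictSupport ℚ (levelSet k m i),
      up k p ∈ restrictSupport ℚ (levelSet k m (i + 1)) := by
    intro p hp
    rw [mem_restrict_iff] at hp ⊢
    constructor
    · rw [up_eul, hp.1, Derivation.leibniz]; simp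
    · rw [up_lev, hp.2, Derivation.leibniz]; simp; ring
  refine LinearMap.finrank_le_finrank_of_injective
    (f := (up k).toLinearMap.restrict hmem) ?_
  rw [← LinearMap.ker_eq_bot, Submodule.eq_bot_iff]
  rintro ⟨p, hp⟩ h
  have hz : up k p = 0 := congrArg Subtype.val h
  have := (mem_restrict_iff m i p).1 hp
  exact Subtype.ext (up_injective hi this.1 this.2 hz)

/-- The sum of the elements of a multiset in `{0, …, k}`. -/
def symLevel {k m : ℕ} (s : Sym (Fin (k + 1)) m) : ℕ := (s.1.map fun j : Fin (k + 1) => (j : ℕ)).sum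

/-- Number of multisets of `m` elements of `{0, …, k}` with sum `i`. -/
noncomputable def levelCard (k m i : ℕ) : ℕ :=
  Nat.card {s : Sym (Fin (k + 1)) m // symLevel s = i}

lemma levelCard_eq (m i : ℕ) : levelCard k m i = Nat.card (levelSet k m i) := by
  refine Nat.card_congr (Equiv.ofBijective
    (fun s => ⟨Multiset.toFinsupp s.1.1, ?_⟩) ⟨?_, ?_⟩)
  · refine ⟨?_, ?_⟩
    · simp only [wsum, mul_one, Multiset.toFinsupp_apply]
      exact (Multiset.sum_count_eq_card fun a _ => Finset.mem_univ a).trans s.1.2
    · refine Eq.trans ?_ s.2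
      simp only [symLevel, wsum, Finset.sum_multiset_map_count]
      simp only [Multiset.toFinsupp_apply, smul_eq_mul]
      refine (Finset.sum_subset (Finset.subset_univ _) fun j _ hj => ?_).symm
      rw [Multiset.mem_toFinset] at hj
      rw [Multiset.count_eq_zero.2 hj, zero_mul]
  · intro s t h
    exact Subtype.ext (Sym.ext (Multiset.toFinsupp.injective (congrArg Subtype.val h)))
  · rintro ⟨d, hd1, hd2⟩
    refine ⟨⟨⟨Finsupp.toMultiset d, ?_⟩, ?_⟩, ?_⟩
    · rw [Finsupp.card_toMultiset, Finsupp.sum_fintype _ _ fun _ => rfl, ← hd1]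
      simp [wsum]
    · refine Eq.trans ?_ hd2
      show ((Finsupp.toMultiset d).map fun j : Fin (k + 1) => (j : ℕ)).sum = _
      rw [wsum, Finsupp.toMultiset_map, Finsupp.sum_toMultiset]
      rw [Finsupp.sum_mapDomain_index (by simp) (fun _ _ _ => by simp [add_mul]),
        Finsupp.sum_fintype _ _ fun _ => by simp]
      simp
    · apply Subtype.ext; simp

lemma levelCard_le {m i : ℕ} (hi : 2 * i < k * m) :
    levelCard k m i ≤ levelCard k m (i + 1) := by
  rw [levelCard_eq, levelCard_eq]; exact card_levelSet_le hi

lemma levelCard_reflect {m i : ℕ} (hi : i ≤ k * m) :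
    levelCard k m (k * m - i) = levelCard k m i := by
  have h : ∀ s : Sym (Fin (k + 1)) m, symLevel (s.map Fin.rev) + symLevel s = k * m := by
    intro s
    simp only [symLevel, Sym.map, Multiset.map_map]
    rw [← Multiset.sum_map_add, Multiset.map_congr rfl (g := fun _ => k) fun x _ => by
      simp [Fin.val_rev]; omega]
    simp [mul_comm]
  refine Nat.card_congr (Equiv.subtypeEquiv (Sym.equivCongr Fin.revPerm) fun s => ?_)
  show symLevel s = k * m - i ↔ symLevel (s.map Fin.rev) = i
  have := h s
  omega

end Vale.Agent.P181.Slice
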