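import Mathlib
import Vale.Agent.P181.Slice.Defs
import Vale.Agent.P181.Slice.QB
import Vale.Agent.P181.Slice.Sl2
import Vale.Agent.P181.Slice.Layers

/-!
Comparison of the layers of `h a [h b]` and `h b [h a]`.
-/

namespace Vale.Agent.P181.Slice

open Polynomial Finset

lemma coeff_gb (k m i : ℕ) : (gb (m + k) k).coeff i = (levelCard k m i : ℤ) := by
  rw [← coeff_qser, qser_sum_eq_prod, ← sum_sym_eq_coeff, finsetSum_coeff]
  have e : ∀ s : Sym (Fin (k + 1)) m,
      (s.1.map fun j : Fin (k + 1) => (X : ℤ[X]) ^ (j : ℕ)).prod = X ^ symLevel s := by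
    intro s
    unfold symLevel
    induction s.1 using Multiset.induction with
    | empty => simp
    | cons x t ih => simp [ih, pow_add]
  simp only [e, coeff_X_pow, levelCard, Finset.sum_boole, Nat.card_eq_fintype_card,
    Fintype.card_subtype, eq_comm]

/-- The coefficients of `p` increase weakly up to `c / 2`. -/
def Up (c : ℕ) (p : ℤ[X]) : Prop := ∀ i, 2 * i ≤ c → 0 ≤ ((1 - X) * p).coeff i

lemma up_zero (c : ℕ) : Up c 0 := fun i _ => by simp

lemma Up.add {c : ℕ} {p q : ℤ[X]} (hp : Up c p) (hq : Up c q) : Up c (p + q) := fun i hi => by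
  rw [mul_add, coeff_add]; exact add_nonneg (hp i hi) (hq i hi)

lemma Up.shift {c : ℕ} {p : ℤ[X]} (hp : Up c p) (n : ℕ) : Up (c + 2 * n) (X ^ n * p) := by
  intro i hi
  rw [← mul_assoc, mul_comm (1 - X) (X ^ n), mul_assoc, coeff_X_pow_mul']
  split_ifs with h
  · exact hp _ (by omega)
  · rfl

lemma up_gb_mul_qn (k m L : ℕ) (hL : 0 < L) : Up (k * m + L - 1) (gb (m + k) k * qn L) := by
  intro i hi
  have mono : ∀ j, 2 * j ≤ k * m + 1 → ∀ j' ≤ j, levelCard k m j' ≤ levelCard k m j := by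
    intro j hj
    induction j with
    | zero => intro j' hj'; rw [Nat.le_zero.1 hj']
    | succ j ih =>
      intro j' hj'
      rcases eq_or_lt_of_le hj' with rfl | h
      · exact le_rfl
      · exact le_trans (ih (by omega) j' (by omega)) (levelCard_le (by omega))
  rw [← mul_assoc, mul_comm (1 - X) (gb _ _), mul_assoc, qn_mul, mul_sub, mul_one, coeff_sub,
    coeff_mul_X_pow', coeff_gb]
  split_ifs with h
  · rw [coeff_gb, sub_nonneg, Nat.cast_le]
    by_cases h2 : 2 * i ≤ k * m + 1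
    · exact mono i h2 _ (by omega)
    · by_cases h3 : i ≤ k * m
      · rw [← levelCard_reflect h3]
        exact mono _ (by omega) _ (by omega)
      · omega
  · simp

/-- A symmetric chain of strings of steps `a`. -/
noncomputable def strings (a c : ℕ) : ℕ → ℤ[X]
  | 0 => 0
  | n + 1 => qn (c + 2 * n * a) + X ^ a * strings a c n

lemma up_strings (k m a c : ℕ) (hc : 0 < c) : ∀ n T, T + 1 + 2 * a = k * m + c + 2 * n * a →
    Up T (gb (m + k) k * strings a c n)
  | 0, T, _ => by simpa [strings] using up_zero T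
  | n + 1, T, h => by
      have e : 2 * (n + 1) * a = 2 * n * a + 2 * a := by ring
      rw [strings, mul_add]
      refine Up.add ?_ ?_
      · rw [show T = k * m + (c + 2 * n * a) - 1 by omega]
        exact up_gb_mul_qn k m _ (by omega)
      · rcases Nat.eq_zero_or_pos n with rfl | hn
        · simpa [strings] using up_zero T
        · have hna : 2 * a ≤ 2 * n * a := by nlinarith
          rw [mul_left_comm]
          have := (up_strings k m a c hc n (T - 2 * a) (by omega)).shift a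
          rwa [Nat.sub_add_cancel (by omega)] at this

lemma strings_mul (a c : ℕ) : ∀ n, (1 - X) * (1 - X ^ a) * strings a c (n + 1) =
    (1 - X ^ (c + n * a)) * (1 - X ^ ((n + 1) * a))
  | 0 => by
      rw [strings, strings]
      simp only [mul_zero, add_zero, Nat.zero_mul, zero_add, one_mul]
      rw [mul_right_comm, qn_mul]
  | n + 1 => by
      have h := strings_mul a c n
      have q := qn_mul (c + 2 * (n + 1) * a)
      rw [strings]
      have e1 : (X : ℤ[X]) ^ (c + 2 * (n + 1) * a) = X ^ c * (X ^ (n * a)) ^ 2 * (X ^ a) ^ 2 := by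
        rw [← pow_mul, ← pow_mul, ← pow_add, ← pow_add]; ring_nf
      have e2 : (X : ℤ[X]) ^ (c + n * a) = X ^ c * X ^ (n * a) := pow_add _ _ _
      have e3 : (X : ℤ[X]) ^ ((n + 1) * a) = X ^ (n * a) * X ^ a := by
        rw [← pow_add]; ring_nf
      have e4 : (X : ℤ[X]) ^ (c + (n + 1) * a) = X ^ c * X ^ (n * a) * X ^ a := by
        rw [← pow_add, ← pow_add]; ring_nf
      have e5 : (X : ℤ[X]) ^ ((n + 1 + 1) * a) = X ^ (n * a) * X ^ a * X ^ a := by
        rw [← pow_add, ← pow_add]; ring_nf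
      rw [e1] at q
      rw [e2, e3] at h
      rw [e4, e5]
      linear_combination X ^ a * h + (1 - (X : ℤ[X]) ^ a) * q

/-- Multiplicities in terms of the layers. -/
lemma mult_eq (a b l1 l2 l3 : ℕ) (h : l1 + l2 + l3 = a * b) (hr : l3 ≤ 2) :
    mult a b l1 l2 l3 = ((1 - X) * (X * layer a b l3 -
      (if l3 = 0 then 0 else (1 + X) * layer a b (l3 - 1)) +
      (if l3 = 2 then layer a b 0 else 0))).coeff (l2 + 1) := by
  have hhom : (plethysm a b * vdm).IsHomogeneous (a * b + (1 + 1 + 1)) := by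
    refine (plethysm_isHomogeneous a b).mul ?_
    exact ((((MvPolynomial.isHomogeneous_X ℤ _).sub (MvPolynomial.isHomogeneous_X ℤ _)).mul
      ((MvPolynomial.isHomogeneous_X ℤ _).sub (MvPolynomial.isHomogeneous_X ℤ _)))).mul
      ((MvPolynomial.isHomogeneous_X ℤ _).sub (MvPolynomial.isHomogeneous_X ℤ _))
  rw [mult, coeff_eq_dehom hhom _ (by simp; omega)]
  have hd2 : (Finsupp.single 0 (l1 + 2) + Finsupp.single 1 (l2 + 1) + Finsupp.single 2 l3 :
      Fin 3 →₀ ℕ) 2 = l3 := by simp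
  have hd1 : (Finsupp.single 0 (l1 + 2) + Finsupp.single 1 (l2 + 1) + Finsupp.single 2 l3 :
      Fin 3 →₀ ℕ) 1 = l2 + 1 := by simp
  rw [hd1, hd2, map_mul]
  congr 1
  have hv : MvPolynomial.aeval pt vdm = C ((1 - X) * X) - C ((1 - X) * (1 + X)) * X +
      C (1 - X) * X * X := by
    simp [vdm, pt]; ring
  have coef : ∀ (P : ℤ[X][X]) (x y z : ℤ[X]),
      (P * (C x - C y * X + C z * X * X)).coeff l3 = x * P.coeff l3 -
        (if l3 = 0 then 0 else y * P.coeff (l3 - 1)) +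
        (if l3 = 2 then z * P.coeff 0 else 0) := by
    intro P x y z
    rw [mul_add, mul_sub, ← mul_assoc, ← mul_assoc P (C z * X), ← mul_assoc P (C z)]
    interval_cases l3 <;> simp [coeff_mul_X, mul_coeff_zero] <;> ring
  rw [hv, coef]
  simp only [layer]
  split_ifs <;> ring

lemma layer_zero_comm {a b : ℕ} (ha : 0 < a) (hb : 0 < b) : layer a b 0 = layer b a 0 := by
  obtain ⟨a, rfl⟩ := Nat.exists_eq_succ_of_ne_zero ha.ne'
  obtain ⟨b, rfl⟩ := Nat.exists_eq_succ_of_ne_zero hb.ne'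
  rw [(layers a _).1, (layers b _).1, add_comm (b + 1) (a + 1), gb_symm (a + 1) (b + 1)]

lemma layer_one_comm {a b : ℕ} (ha : 0 < a) (hb : 0 < b) : layer a b 1 = layer b a 1 := by
  obtain ⟨a, rfl⟩ := Nat.exists_eq_succ_of_ne_zero ha.ne'
  obtain ⟨b, rfl⟩ := Nat.exists_eq_succ_of_ne_zero hb.ne'
  rw [(layers a _).2.1, (layers b _).2.1]
  have h1 := gb_mul (b + 1) a
  have h2 := gb_mul (a + 1) b
  have q1 := qn_mul (b + 1)
  have q2 := qn_mul (a + 1)
  rw [show b + 1 + a = a + (b + 1) by omega, qf] at h1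
  rw [show a + 1 + b = b + (a + 1) by omega, qf] at h2
  rw [show a + (b + 1) = b + (a + 1) by omega] at h1 ⊢
  simp only [Nat.succ_eq_add_one] at *
  apply mul_right_cancel₀ (mul_ne_zero (mul_ne_zero (qf_ne_zero a) (qf_ne_zero b))
    (show (1 - X : ℤ[X]) ≠ 0 by simpa [qf] using qf_ne_zero 1))
  linear_combination qf a * qf b * gb (b + (a + 1)) (b + 1) * q1 -
    qf a * qf b * gb (b + (a + 1)) (a + 1) * q2 + h1 - h2

/-- The difference of the two second layers. -/
lemma layer_two_sub (α d : ℕ) (S : ℤ[X])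
    (hS : (1 - X) * (1 - X ^ (α + 2)) * S = (1 - X ^ (α + d + 1)) * (1 - X ^ d)) :
    layer (α + d + 2) (α + 2) 2 - layer (α + 2) (α + d + 2) 2 =
      X ^ (α + 2) * (gb (α + d + 2 + α) α * S) := by
  rw [(layers (α + d + 1) (α + 2)).2.2, (layers (α + 1) (α + d + 2)).2.2, if_neg (by omega),
    if_neg (by omega)]
  simp only [show α + d + 1 - 1 = α + d by omega,
    show α + 2 - 1 = α + 1 by omega, show α + d + 2 - 1 = α + d + 1 by omega,
    show α + 1 - 1 = α by omega]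
  set N := α + (α + d + 2) with hN
  have g0 := gb_mul α (α + d + 2)
  have g1 := gb_mul (α + d + 2) α
  have g2 := gb_mul (α + d + 2) (α + 1)
  have g3 := gb_mul (α + 2) (α + d)
  have g4 := gb_mul (α + 2) (α + d + 1)
  rw [show α + d + 2 + α = N by omega] at g1 ⊢
  rw [← hN] at g0
  rw [show α + d + 2 + (α + 1) = N + 1 by omega] at g2
  rw [show α + 2 + (α + d) = N by omega] at g3
  rw [show α + 2 + (α + d + 1) = N + 1 by omega] at g4
  rw [show α + d + (α + 2) = N by omega, show α + d + 1 + (α + 2) = N + 1 by omega,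
    show α + 1 + (α + d + 2) = N + 1 by omega]
  have eN : (X : ℤ[X]) ^ (N + 1) = X ^ α * X ^ α * X ^ d * X ^ 3 := by
    rw [← pow_add, ← pow_add, ← pow_add]; congr 1; omega
  have fa : qf (α + 2) = qf α * (1 - X ^ (α + 1)) * (1 - X ^ (α + 2)) := rfl
  have fb : qf (α + d + 2) = qf (α + d) * (1 - X ^ (α + d + 1)) * (1 - X ^ (α + d + 2)) := rfl
  have fa1 : qf (α + 1) = qf α * (1 - X ^ (α + 1)) := rfl
  have fb1 : qf (α + d + 1) = qf (α + d) * (1 - X ^ (α + d + 1)) := rfl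
  have fN : qf (N + 1) = qf N * (1 - X ^ (N + 1)) := rfl
  have qa := qn_mul (α + 1)
  have qb := qn_mul (α + d + 1)
  have ha := h2_mul (α + 2)
  have hb := h2_mul (α + d + 2)
  have key : (1 - X) * (1 - X ^ 2) * qf (α + 2) * qf (α + d + 2) *
      (gb N (α + 2) * h2 (α + 2) + gb (N + 1) (α + 2) * qn (α + 1) -
        (gb N (α + d + 2) * h2 (α + d + 2) + gb (N + 1) (α + d + 2) * qn (α + d + 1))) =
      qf N * ((1 - X ^ (α + d + 2)) * (1 - X ^ (α + d + 1)) *
          ((1 - X ^ (α + 2 + 1)) * (1 - X ^ (α + 2))) +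
        (1 - X ^ (N + 1)) * (1 - X ^ (α + d + 2)) * (1 - X ^ 2) * (1 - X ^ (α + 1)) -
        ((1 - X ^ (α + 2)) * (1 - X ^ (α + 1)) *
          ((1 - X ^ (α + d + 2 + 1)) * (1 - X ^ (α + d + 2))) +
        (1 - X ^ (N + 1)) * (1 - X ^ (α + 2)) * (1 - X ^ 2) * (1 - X ^ (α + d + 1)))) := by
    rw [fN] at g2 g4
    rw [fb1] at g4
    rw [fa1] at g2
    rw [fb] at g1 g2 ⊢
    rw [fa] at g3 g4 ⊢
    linear_combination
      ((1 - X ^ (α + d + 2)) * (1 - X ^ (α + d + 1)) * h2 (α + 2) * (1 - X) * (1 - X ^ 2)) * g3 +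
      (qf N * (1 - X ^ (α + d + 2)) * (1 - X ^ (α + d + 1))) * ha +
      ((1 - X ^ (α + d + 2)) * qn (α + 1) * (1 - X) * (1 - X ^ 2)) * g4 +
      (qf N * (1 - X ^ (N + 1)) * (1 - X ^ (α + d + 2)) * (1 - X ^ 2)) * qa -
      ((1 - X ^ (α + 2)) * (1 - X ^ (α + 1)) * h2 (α + d + 2) * (1 - X) * (1 - X ^ 2)) * g1 -
      (qf N * (1 - X ^ (α + 2)) * (1 - X ^ (α + 1))) * hb -
      ((1 - X ^ (α + 2)) * qn (α + d + 1) * (1 - X) * (1 - X ^ 2)) * g2 -
      (qf N * (1 - X ^ (N + 1)) * (1 - X ^ (α + 2)) * (1 - X ^ 2)) * qb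
  have rhs : (1 - X) * (1 - X ^ 2) * qf (α + 2) * qf (α + d + 2) *
      (X ^ (α + 2) * (gb N α * S)) =
      qf N * X ^ (α + 2) * (1 - X ^ 2) * (1 - X ^ (α + 1)) *
        ((1 - X ^ (α + d + 1)) * (1 - X ^ d)) := by
    rw [fa]
    linear_combination ((1 - X) * (1 - X ^ 2) * (1 - X ^ (α + 1)) * (1 - X ^ (α + 2)) *
      X ^ (α + 2) * S) * g0 + (qf N * X ^ (α + 2) * (1 - X ^ 2) * (1 - X ^ (α + 1))) * hS
  have ne : (1 - X) * (1 - X ^ 2) * qf (α + 2) * qf (α + d + 2) ≠ (0 : ℤ[X]) := by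
    refine mul_ne_zero (mul_ne_zero ?_ (qf_ne_zero _)) (qf_ne_zero _)
    simpa [qf] using qf_ne_zero 2
  apply mul_left_cancel₀ ne
  rw [key, rhs, eN]
  ring

lemma sub_nonneg_of_layers {a b l1 l2 : ℕ} (ha : 0 < a) (hb : 0 < b) (h : l1 + l2 + 2 = a * b)
    (hu : Up (a * b - 2) (layer b a 2 - layer a b 2)) (hl : l2 ≤ l1) :
    mult a b l1 l2 2 ≤ mult b a l1 l2 2 := by
  rw [mult_eq a b l1 l2 2 h le_rfl, mult_eq b a l1 l2 2 (by rw [h, mul_comm]) le_rfl,
    layer_zero_comm ha hb, layer_one_comm ha hb, ← sub_nonneg, ← coeff_sub]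
  have := hu l2 (by omega)
  rw [← coeff_X_mul] at this
  simp only [if_true, show (2 : ℕ) ≠ 0 by norm_num, if_false, Nat.add_one_sub_one] at *
  refine le_of_le_of_eq this ?_
  congr 1
  ring

theorem slice_le {a b l1 l2 : ℕ} (ha : 1 ≤ a) (hab : a ≤ b) (hd : a ∣ b ∨ a ∣ b - 1)
    (hl : l2 ≤ l1) (h : l1 + l2 + 2 = a * b) : mult a b l1 l2 2 ≤ mult b a l1 l2 2 := by
  rcases eq_or_lt_of_le ha with rfl | ha2
  · refine sub_nonneg_of_layers one_pos (by omega) h ?_ hl
    have e : layer b 1 2 = layer 1 b 2 := by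
      obtain ⟨c, rfl⟩ := Nat.exists_eq_succ_of_ne_zero (show b ≠ 0 by omega)
      rw [(layers 0 _).2.2, (layers c 1).2.2, if_pos rfl]
      rcases c with _ | c
      · simp [qn]
      · have h2 : h2 1 = 1 := by simp [h2, qser, geom]
        have g : gb (c + 1) 1 = qn (c + 1) := by
          rw [← coeff_one_qser, coeff_qser, add_comm 1 c, gb_symm c 1]
        simp [h2, qn, g]
    rw [e, sub_self]; exact up_zero _
  obtain ⟨α, rfl⟩ : ∃ α, a = α + 2 := ⟨a - 2, by omega⟩
  obtain ⟨d, rfl⟩ : ∃ d, b = α + d + 2 := ⟨b - (α + 2), by omega⟩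
  refine sub_nonneg_of_layers (by omega) (by omega) h ?_ hl
  obtain ⟨c, n, hc, h1, h2⟩ : ∃ c n, 0 < c ∧
      (α + 2) * (2 * n) + c = 2 * d + (α + 2) * 2 - 1 ∧
      ((1 - X) * (1 - X ^ (α + 2)) * strings (α + 2) c n =
        (1 - X ^ (α + d + 1)) * (1 - X ^ d) : Prop) := by
    rcases hd with ⟨k, hk⟩ | ⟨k, hk⟩
    · obtain ⟨k, rfl⟩ : ∃ j, k = j + 1 :=
        ⟨k - 1, by rcases k with _ | k <;> [omega; omega]⟩
      have hd' : d = (α + 2) * k := by rw [mul_add, mul_one] at hk; omega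
      refine ⟨2 * α + 3, k, by omega, by subst hd'; ring_nf; omega, ?_⟩
      rcases k with _ | k
      · simp [strings, hd']
      · rw [strings_mul, hd']; congr 3
        · ring
        · ring
    · obtain ⟨k, rfl⟩ : ∃ j, k = j + 1 :=
        ⟨k - 1, by rcases k with _ | k <;> [omega; omega]⟩
      refine ⟨1, k + 1, one_pos, ?_, ?_⟩
      · have : (α + 2) * (2 * (k + 1)) = 2 * ((α + 2) * (k + 1)) := by ring
        omega
      · rw [strings_mul, mul_comm (1 - X ^ (1 + k * (α + 2)) : ℤ[X])]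
        congr 3
        · rw [mul_comm (k + 1)]; omega
        · have : (α + 2) * (k + 1) = k * (α + 2) + (α + 2) := by ring
          omega
  rw [layer_two_sub α d _ h2]
  have e : (α + 2) * (α + d + 2) = α * (α + d + 2) + (2 * (α + d + 2)) := by ring
  have e' : 2 * n * (α + 2) = (α + 2) * (2 * n) := by ring
  rcases Nat.eq_zero_or_pos n with hn | hn
  · subst hn; simpa [strings] using up_zero _
  have hna : (α + 2) * 2 ≤ (α + 2) * (2 * n) := Nat.mul_le_mul_left _ (by omega)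
  have hT : 2 * (α + 2) + 2 ≤ (α + 2) * (α + d + 2) := by omega
  have := (up_strings α (α + d + 2) (α + 2) c hc n
    ((α + 2) * (α + d + 2) - 2 - 2 * (α + 2)) (by omega)).shift (α + 2)
  rwa [show (α + 2) * (α + d + 2) - 2 - 2 * (α + 2) + 2 * (α + 2) =
    (α + 2) * (α + d + 2) - 2 by omega] at this

end Vale.Agent.P181.Slice
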